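import Vale.Agent.P066.Theta.H505.Triple
import Vale.Agent.P066.Theta.H21.OneVar
import Vale.Agent.P066.Theta.MutDefs

/-!
# Levels, the dilogarithm of `y_k`, and the two steps of the support lemma
-/

set_option autoImplicit false

open Finset

namespace Vale.Agent.P066.Theta

noncomputable section

namespace SuppM

open QSeries

variable {r : ℕ} {B : Matrix (Fin r) (Fin r) ℤ}

/-! ### the level off `k` -/

/-- degree off `k` -/
def lev (k : Fin r) (γ : Fin r →₀ ℕ) : ℕ := ∑ j ∈ univ.erase k, γ j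

theorem lev_add (k : Fin r) (a b : Fin r →₀ ℕ) : lev k (a + b) = lev k a + lev k b := by
  simp [lev, sum_add_distrib]

@[simp] theorem lev_zero (k : Fin r) : lev k (0 : Fin r →₀ ℕ) = 0 := by simp [lev]

theorem lev_single (k : Fin r) (m : ℕ) : lev k (Finsupp.single k m) = 0 := by
  unfold lev
  refine sum_eq_zero fun j hj => ?_
  rw [mem_erase] at hj
  rw [Finsupp.single_apply, if_neg (Ne.symm hj.1)]

theorem eq_single_of_lev {k : Fin r} {γ : Fin r →₀ ℕ} (h : lev k γ = 0) :
    γ = Finsupp.single k (γ k) := by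
  ext j
  by_cases hj : j = k
  · subst hj
    simp
  · rw [Finsupp.single_apply, if_neg (Ne.symm hj)]
    unfold lev at h
    rw [sum_eq_zero_iff] at h
    exact h j (mem_erase.2 ⟨hj, mem_univ j⟩)

/-- `{γ | γ_k ≤ ∑_j γ_j a_j}`. -/
def coneSub (k : Fin r) (a : Fin r → ℕ) : AddSubmonoid (Fin r →₀ ℕ) where
  carrier := {γ | γ k ≤ ∑ j, γ j * a j}
  zero_mem' := by simp
  add_mem' := by
    intro x y hx hy
    simp only [Set.mem_ofPred_eq, Finsupp.add_apply] at hx hy ⊢
    have : ∑ j, (x j + y j) * a j = ∑ j, x j * a j + ∑ j, y j * a j := by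
      rw [← sum_add_distrib]
      exact sum_congr rfl fun j _ => by ring
    rw [this]
    exact add_le_add hx hy

theorem mem_coneSub {k : Fin r} {a : Fin r → ℕ} {γ : Fin r →₀ ℕ} :
    γ ∈ coneSub k a ↔ γ k ≤ ∑ j, γ j * a j := Iff.rfl

theorem eq_zero_of_mem_cone {k : Fin r} {a : Fin r → ℕ} (ha : a k = 0) {γ : Fin r →₀ ℕ}
    (h : γ ∈ coneSub k a) (hl : lev k γ = 0) : γ = 0 := by
  have e := eq_single_of_lev hl
  rw [mem_coneSub] at h
  have h0 : ∑ j, γ j * a j = 0 := by
    refine sum_eq_zero fun j _ => ?_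
    by_cases hj : j = k
    · subst hj
      rw [ha, mul_zero]
    · rw [e, Finsupp.single_apply, if_neg (Ne.symm hj), zero_mul]
  rw [h0] at h
  rw [e, Nat.le_zero.1 h, Finsupp.single_zero]

/-- `{γ | lev γ < n → γ ∈ S}`. -/
def levSub (k : Fin r) (n : ℕ) (S : AddSubmonoid (Fin r →₀ ℕ)) : AddSubmonoid (Fin r →₀ ℕ) where
  carrier := {γ | lev k γ < n → γ ∈ S}
  zero_mem' := fun _ => S.zero_mem
  add_mem' := by
    intro x y hx hy h
    simp only [Set.mem_ofPred_eq] at hx hy
    rw [lev_add] at h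
    exact S.add_mem (hx (by omega)) (hy (by omega))

theorem mem_levSub {k : Fin r} {n : ℕ} {S : AddSubmonoid (Fin r →₀ ℕ)} {γ : Fin r →₀ ℕ} :
    γ ∈ levSub k n S ↔ (lev k γ < n → γ ∈ S) := Iff.rfl

theorem indecomp {k : Fin r} {a : Fin r → ℕ} (ha : a k = 0) {b : Fin r →₀ ℕ}
    (hb : 0 < lev k b) (hnb : b ∉ coneSub k a) (p q : Fin r →₀ ℕ)
    (hp : p ∈ levSub k (lev k b) (coneSub k a)) (hq : q ∈ levSub k (lev k b) (coneSub k a))
    (hpq : p + q = b) : p = 0 ∨ q = 0 := by
  rw [mem_levSub] at hp hq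
  have e : lev k p + lev k q = lev k b := by rw [← hpq, lev_add]
  by_cases h1 : lev k p = 0
  · exact Or.inl (eq_zero_of_mem_cone ha (hp (by omega)) h1)
  by_cases h2 : lev k q = 0
  · exact Or.inr (eq_zero_of_mem_cone ha (hq (by omega)) h2)
  · exact absurd (hpq ▸ add_mem (hp (by omega)) (hq (by omega))) hnb

theorem clusterData_eq_zero {k : Fin r} {a : Fin r → ℕ} {b : Fin r →₀ ℕ}
    (hb : 0 < lev k b) (hnb : b ∉ coneSub k a) : clusterData b = 0 := by
  unfold clusterData
  rw [if_neg]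
  rintro ⟨j, hj⟩
  by_cases hjk : j = k
  · subst hjk
    rw [hj, lev_single] at hb
    exact absurd hb (lt_irrefl _)
  · apply hnb
    rw [mem_coneSub]
    have : b k = 0 := by rw [hj, Finsupp.single_apply, if_neg hjk]
    rw [this]
    exact Nat.zero_le _

/-! ### the dilogarithm of `y_k` -/

theorem single_ne (k : Fin r) : (Finsupp.single k 1 : Fin r →₀ ℕ) ≠ 0 := by
  simp

theorem dilog_single (k : Fin r) (m : ℕ) :
    dilog B (Finsupp.single k 1) (Finsupp.single k m) = psi m := by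
  have := Dil.line_smul_apply (B := B) (single_ne k) psi m
  rw [Finsupp.smul_single, smul_eq_mul, mul_one] at this
  exact this

theorem dilog_supp {k : Fin r} {γ : Fin r →₀ ℕ}
    (h : dilog B (Finsupp.single k 1) γ ≠ 0) : γ = Finsupp.single k (γ k) := by
  by_contra hc
  apply h
  refine Dil.line_apply_of_not (B := B) psi fun m hm => hc ?_
  rw [← hm]
  simp

theorem dilog_zero (k : Fin r) : dilog B (Finsupp.single k 1) 0 = 1 := by
  have := dilog_single (B := B) k 0
  rw [Finsupp.single_zero] at this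
  rw [this, Dil.psi_zero]

/-- `{γ | γ ∈ ℕ y_k}`. -/
def lineSub (k : Fin r) : AddSubmonoid (Fin r →₀ ℕ) where
  carrier := {γ | lev k γ = 0}
  zero_mem' := lev_zero k
  add_mem' := by
    intro x y hx hy
    simp only [Set.mem_ofPred_eq] at hx hy ⊢
    rw [lev_add, hx, hy]

theorem dilog_mem_line (k : Fin r) : dilog B (Finsupp.single k 1) ∈ supp (B := B) (lineSub k) := by
  intro γ h
  rw [dilog_supp h]
  exact lev_single k _

theorem wt_single (Q : Fin r → ℤ) (k : Fin r) (m : ℕ) :
    wt Q (Finsupp.single k m) = m * Q k := by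
  unfold wt
  rw [sum_eq_single k]
  · simp
  · intro j _ hj
    rw [Finsupp.single_apply, if_neg (Ne.symm hj)]
    simp
  · intro h
    exact absurd (mem_univ k) h

theorem dilog_mem_pos {k : Fin r} {Q : Fin r → ℤ} (hQ : 0 < Q k) :
    dilog B (Finsupp.single k 1) ∈ supp (B := B) (posSub Q) := by
  intro γ h
  have e := dilog_supp h
  rw [mem_posSub]
  by_cases h0 : γ k = 0
  · left
    rw [e, h0, Finsupp.single_zero]
  · right
    rw [e, wt_single]
    positivity

theorem dilog_mem_neg {k : Fin r} {Q : Fin r → ℤ} (hQ : Q k < 0) :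
    dilog B (Finsupp.single k 1) ∈ supp (B := B) (negSub Q) := by
  intro γ h
  have e := dilog_supp h
  rw [mem_negSub]
  by_cases h0 : γ k = 0
  · left
    rw [e, h0, Finsupp.single_zero]
  · right
    rw [e, wt_single]
    exact mul_neg_of_pos_of_neg (by positivity) hQ

theorem dilog_mem_zero {k : Fin r} {Q : Fin r → ℤ} (hQ : Q k = 0) :
    dilog B (Finsupp.single k 1) ∈ supp (B := B) (zeroSub Q) := by
  intro γ h
  have e := dilog_supp h
  rw [mem_zeroSub, e, wt_single, hQ, mul_zero]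

/-- Conjugation by a series supported on `Q = 0` preserves the series supported on `0` and
`Q > 0`. -/
theorem conj_mem_pos {Q : Fin r → ℤ} {p q f : QSeries B} (hpq : p * q = 1)
    (hp : p ∈ supp (B := B) (zeroSub Q)) (hq : q ∈ supp (B := B) (zeroSub Q))
    (hf0 : f 0 = 1) (hf : f ∈ supp (B := B) (posSub Q)) :
    p * f * q ∈ supp (B := B) (posSub Q) := by
  have e : p * f * q = 1 + p * (f - 1) * q := by
    rw [mul_sub, sub_mul, mul_one, hpq]
    abel
  rw [e]
  refine add_mem (one_mem _) ?_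
  intro γ h
  obtain ⟨a, c, hac, ha, hc⟩ := exists_of_mul_ne h
  obtain ⟨a1, a2, ha12, h1, h2⟩ := exists_of_mul_ne ha
  have h3 : a2 ≠ 0 := by
    rintro rfl
    apply h2
    rw [sub_apply, hf0, one_zero, sub_self]
  have h4 : 0 < wt Q a2 := by
    refine (mem_posSub.1 (hf a2 ?_)).resolve_left h3
    rw [sub_apply, one_apply, if_neg h3, sub_zero] at h2
    exact h2
  right
  rw [← hac, ← ha12, wt_add, wt_add, mem_zeroSub.1 (hp a1 h1), mem_zeroSub.1 (hq c hc)]
  omega

/-! ### the two steps -/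

theorem exists_logDer {h0 : QSeries B} (h1 : h0 0 = 1) : ∃ L : QSeries B, h0 * L = euler h0 :=
  ⟨Ring.inverse h0 * euler h0, by
    rw [← mul_assoc, Ring.mul_inverse_cancel _ (isUnit_of_one h1), one_mul]⟩

theorem deg_ne_zero {b : Fin r →₀ ℕ} (hb : b ≠ 0) : (deg b : K) ≠ 0 := by
  have : deg b ≠ 0 := by
    intro h
    apply hb
    unfold deg at h
    rw [sum_eq_zero_iff] at h
    ext j
    exact h j (mem_univ j)
  exact_mod_cast this

theorem chartAt_apply (b : Fin r →₀ ℕ) (k : Fin r) :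
    chartAt B 0 b k = omega B (toZ (Finsupp.single k 1)) (toZ b) := by
  rw [← wt_chartAt, wt_single]
  simp

/-- In the zero part `Ψ(y_k) h_0` the coefficients of the logarithmic derivative off the line of
`y_k` are those of `h_0`. -/
theorem logDer_dilog_mul (hB : B.transpose = -B) {k : Fin r} {b : Fin r →₀ ℕ}
    (hb : lev k b ≠ 0) {h0 L L' : QSeries B} (h1 : h0 0 = 1)
    (hs : h0 ∈ supp (B := B) (zeroSub (chartAt B 0 b)))
    (hL : h0 * L = euler h0)
    (hL' : dilog B (Finsupp.single k 1) * h0 * L' = euler (dilog B (Finsupp.single k 1) * h0)) :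
    L' b = L b := by
  set P := dilog B (Finsupp.single k 1) with hP
  have hP0 : P 0 = 1 := dilog_zero k
  obtain ⟨M, hM⟩ := exists_logDer hP0
  have hMs : M ∈ supp (B := B) (lineSub k) := logDer_mem hP0 (dilog_mem_line k) hM
  have hMb : M b = 0 := by
    by_contra hc
    exact hb (hMs b hc)
  have hu : IsUnit h0 := isUnit_of_one h1
  have hu2 : IsUnit (P * h0) := isUnit_of_one (by rw [mul_zero_apply, hP0, h1, one_mul])
  have e : L' = Ring.inverse h0 * (M * h0) + L := by
    have : P * h0 * L' = P * h0 * (Ring.inverse h0 * (M * h0) + L) := by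
      rw [hL', euler_mul, mul_add, mul_assoc P h0 L, hL, ← hM]
      congr 1
      rw [mul_assoc P h0, ← mul_assoc h0, Ring.mul_inverse_cancel _ hu, one_mul, mul_assoc]
    exact hu2.mul_left_cancel this
  have hi : Ring.inverse h0 ∈ supp (B := B) (zeroSub (chartAt B 0 b)) :=
    inverse_mem_supp hs (by rw [h1]; exact one_ne_zero)
  rw [e, add_apply, mul_comm_apply hB hi, mul_assoc, Ring.mul_inverse_cancel _ hu, mul_one, hMb,
    zero_add]

theorem step_right (hB : B.transpose = -B) {k : Fin r} {a : Fin r → ℕ} (ha : a k = 0)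
    {g h : QSeries B} (hg : IsCluster B g) (hgh : g = dilog B (Finsupp.single k 1) * h)
    {b : Fin r →₀ ℕ} (hb : 0 < lev k b)
    (ih : ∀ γ, lev k γ < lev k b → h γ ≠ 0 → γ ∈ coneSub k a)
    (hω : 0 ≤ chartAt B 0 b k) (hnb : b ∉ coneSub k a) : h b = 0 := by
  set P := dilog B (Finsupp.single k 1) with hP
  have hP0 : P 0 = 1 := dilog_zero k
  have hb0 : b ≠ 0 := by
    rintro rfl
    simp at hb
  have hh0 : h 0 = 1 := by
    have := hg.1
    rw [hgh, mul_zero_apply, hP0, one_mul] at this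
    exact this
  have hT : h ∈ supp (B := B) (levSub k (lev k b) (coneSub k a)) := fun γ hγ hlt => ih γ hlt hγ
  obtain ⟨hp, h0, hm, ht⟩ := exists_triple hh0 (chartAt B 0 b)
  have hwb : wt (chartAt B 0 b) b = 0 := by
    rw [wt_chartAt, omega_self hB]
  have hT0 := (triple_mem ht hT).2.1
  obtain ⟨t1, t2, t3, t4, t5, t6, t7⟩ := isTriple_iff.1 ht
  obtain ⟨L, hL⟩ := exists_logDer t3
  have e1 := zero_part_apply ht hT hb0 hwb (indecomp ha hb hnb)
  have e2 := logDer_apply t3 hT0 hL hb0 (indecomp ha hb hnb)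
  have e3 : L b = 0 := by
    rcases hω.lt_or_eq with hω | hω
    · rw [hg.2 b hb0 (P * hp) h0 hm L ?_ hL]
      · exact clusterData_eq_zero hb hnb
      · refine isTriple_iff.2 ⟨?_, mul_mem (dilog_mem_pos hω) t2, t3, t4, t5, t6, ?_⟩
        · rw [mul_zero_apply, hP0, t1, one_mul]
        · rw [hgh, t7]
          simp only [mul_assoc]
    · have hPz : P ∈ supp (B := B) (zeroSub (chartAt B 0 b)) := dilog_mem_zero hω.symm
      have hPu : IsUnit P := isUnit_of_one hP0
      obtain ⟨L', hL'⟩ := exists_logDer (h0 := P * h0) (by rw [mul_zero_apply, hP0, t3, one_mul])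
      rw [← logDer_dilog_mul hB hb.ne' t3 t4 hL hL',
        hg.2 b hb0 (P * hp * Ring.inverse P) (P * h0) hm L' ?_ hL']
      · exact clusterData_eq_zero hb hnb
      · refine isTriple_iff.2 ⟨?_, ?_, ?_, mul_mem hPz t4, t5, t6, ?_⟩
        · rw [mul_zero_apply, mul_zero_apply, hP0, t1, inverse_zero_apply hP0, one_mul, one_mul]
        · exact conj_mem_pos (Ring.mul_inverse_cancel _ hPu) hPz
            (inverse_mem_supp hPz (by rw [hP0]; exact one_ne_zero)) t1 t2
        · rw [mul_zero_apply, hP0, t3, one_mul]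
        · rw [hgh, t7]
          have : P * hp * Ring.inverse P * (P * h0) = P * hp * h0 := by
            rw [mul_assoc (P * hp), ← mul_assoc (Ring.inverse P), Ring.inverse_mul_cancel _ hPu,
              one_mul]
          rw [this]
          simp only [mul_assoc]
  rw [e1]
  rw [e2] at e3
  exact (mul_eq_zero.1 e3).resolve_left (deg_ne_zero hb0)

theorem step_left (hB : B.transpose = -B) {k : Fin r} {a : Fin r → ℕ} (ha : a k = 0)
    {g l : QSeries B} (hg : IsCluster B g) (hgl : g = l * dilog B (Finsupp.single k 1))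
    {b : Fin r →₀ ℕ} (hb : 0 < lev k b)
    (ih : ∀ γ, lev k γ < lev k b → l γ ≠ 0 → γ ∈ coneSub k a)
    (hω : chartAt B 0 b k < 0) (hnb : b ∉ coneSub k a) : l b = 0 := by
  set P := dilog B (Finsupp.single k 1) with hP
  have hP0 : P 0 = 1 := dilog_zero k
  have hb0 : b ≠ 0 := by
    rintro rfl
    simp at hb
  have hl0 : l 0 = 1 := by
    have := hg.1
    rw [hgl, mul_zero_apply, hP0, mul_one] at this
    exact this
  have hT : l ∈ supp (B := B) (levSub k (lev k b) (coneSub k a)) := fun γ hγ hlt => ih γ hlt hγ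
  obtain ⟨hp, h0, hm, ht⟩ := exists_triple hl0 (chartAt B 0 b)
  have hwb : wt (chartAt B 0 b) b = 0 := by
    rw [wt_chartAt, omega_self hB]
  have hT0 := (triple_mem ht hT).2.1
  obtain ⟨t1, t2, t3, t4, t5, t6, t7⟩ := isTriple_iff.1 ht
  obtain ⟨L, hL⟩ := exists_logDer t3
  have e1 := zero_part_apply ht hT hb0 hwb (indecomp ha hb hnb)
  have e2 := logDer_apply t3 hT0 hL hb0 (indecomp ha hb hnb)
  have e3 : L b = 0 := by
    rw [hg.2 b hb0 hp h0 (hm * P) L ?_ hL]
    · exact clusterData_eq_zero hb hnb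
    · refine isTriple_iff.2 ⟨t1, t2, t3, t4, ?_, mul_mem t6 (dilog_mem_neg hω), ?_⟩
      · rw [mul_zero_apply, hP0, t5, one_mul]
      · rw [hgl, t7]
        simp only [mul_assoc]
  rw [e1]
  rw [e2] at e3
  exact (mul_eq_zero.1 e3).resolve_left (deg_ne_zero hb0)

end SuppM

end

end Vale.Agent.P066.Theta
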