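import Vale.Agent.P066.Theta.Uncond
import Vale.Agent.P066.Theta.H615.Fact

/-!
# Triple factorizations: existence, supports, products, logarithmic derivatives
-/

set_option autoImplicit false

open Finset

namespace Vale.Agent.P066.Theta

noncomputable section

namespace SuppM

open QSeries

variable {r : ℕ} {B : Matrix (Fin r) (Fin r) ℤ}

theorem wt_chartAt (b γ : Fin r →₀ ℕ) :
    wt (chartAt B 0 b) γ = omega B (toZ γ) (toZ b) := by
  simp only [wt, chartAt, omega, toZ, Pi.zero_apply, zero_add, Finset.mul_sum]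
  exact sum_congr rfl fun i _ => sum_congr rfl fun j _ => by ring

/-- If all mixed terms vanish, a coefficient of a product is the sum of the extreme terms. -/
theorem mul_apply_of_mixed {f g : QSeries B} {γ : Fin r →₀ ℕ} (hγ : γ ≠ 0)
    (h : ∀ a b, a + b = γ → a ≠ 0 → b ≠ 0 → f a = 0 ∨ g b = 0) :
    (f * g) γ = f 0 * g γ + f γ * g 0 := by
  rw [mul_apply_extreme _ _ hγ]
  have : ∑ p ∈ (antidiagonal γ).filter (fun p => p.1 ≠ 0 ∧ p.2 ≠ 0),
      v ^ omega B (toZ p.1) (toZ p.2) * f p.1 * g p.2 = 0 := by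
    refine sum_eq_zero fun p hp => ?_
    rw [mem_filter, HasAntidiagonal.mem_antidiagonal] at hp
    rcases h p.1 p.2 hp.1 hp.2.1 hp.2.2 with h | h <;> rw [h] <;> ring
  rw [this, add_zero]

theorem exists_of_mul_ne {f g : QSeries B} {γ : Fin r →₀ ℕ} (h : (f * g) γ ≠ 0) :
    ∃ a b, a + b = γ ∧ f a ≠ 0 ∧ g b ≠ 0 := by
  by_contra hc
  push Not at hc
  apply h
  apply QSeries.mul_apply_eq_zero
  intro a b hab
  by_cases ha : f a = 0
  · exact Or.inl ha
  · exact Or.inr (hc a b hab ha)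

/-- Factors of a series supported on `T` are supported on `T`. -/
theorem factor_mem {P L T : AddSubmonoid (Fin r →₀ ℕ)} (hPL : ∀ γ, γ ∈ P → γ ∈ L → γ = 0)
    {f f1 f2 : QSeries B} (h1 : f1 0 = 1) (h2 : f2 0 = 1) (hP : f1 ∈ supp (B := B) P)
    (hL : f2 ∈ supp (B := B) L) (hf : f = f1 * f2) (hT : f ∈ supp (B := B) T) :
    f1 ∈ supp (B := B) T ∧ f2 ∈ supp (B := B) T := by
  have key : ∀ γ, (f1 γ ≠ 0 → γ ∈ T) ∧ (f2 γ ≠ 0 → γ ∈ T) := by
    intro γ
    induction γ using WellFoundedLT.induction with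
    | ind γ ih =>
      by_cases hγ : γ = 0
      · subst hγ
        exact ⟨fun _ => T.zero_mem, fun _ => T.zero_mem⟩
      by_cases hg : γ ∈ T
      · exact ⟨fun _ => hg, fun _ => hg⟩
      have e : f γ = f2 γ + f1 γ := by
        rw [hf, mul_apply_of_mixed hγ, h1, h2, one_mul, mul_one]
        intro a b hab ha hb
        by_contra hc
        push Not at hc
        have i1 := (ih a (lt_of_antidiagonal_fst hab hb)).1 hc.1
        have i2 := (ih b (lt_of_antidiagonal_snd hab ha)).2 hc.2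
        exact hg (hab ▸ T.add_mem i1 i2)
      have e0 : f γ = 0 := by
        by_contra hc
        exact hg (hT γ hc)
      rw [e0] at e
      by_cases hp : f1 γ = 0
      · rw [hp, add_zero] at e
        exact ⟨fun h => absurd hp h, fun h => absurd e.symm h⟩
      · have : f2 γ = 0 := by
          by_contra hc
          exact hγ (hPL γ (hP γ hp) (hL γ hc))
        rw [this, zero_add] at e
        exact absurd e.symm hp
  exact ⟨fun γ h => (key γ).1 h, fun γ h => (key γ).2 h⟩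

/-! ### submonoids given by the sign of `Q` -/

/-- `{γ | 0 ≤ Q(γ)}`. -/
def geSub (Q : Fin r → ℤ) : AddSubmonoid (Fin r →₀ ℕ) where
  carrier := {γ | 0 ≤ wt Q γ}
  zero_mem' := by simp
  add_mem' := by
    intro a b ha hb
    simp only [Set.mem_ofPred_eq] at ha hb ⊢
    rw [wt_add]
    exact add_nonneg ha hb

/-- `{γ | Q(γ) = 0}`. -/
def zeroSub (Q : Fin r → ℤ) : AddSubmonoid (Fin r →₀ ℕ) where
  carrier := {γ | wt Q γ = 0}
  zero_mem' := by simp
  add_mem' := by
    intro a b ha hb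
    simp only [Set.mem_ofPred_eq] at ha hb ⊢
    rw [wt_add, ha, hb, add_zero]

/-- `{γ | γ = 0 or Q(γ) < 0}`. -/
def negSub (Q : Fin r → ℤ) : AddSubmonoid (Fin r →₀ ℕ) where
  carrier := {γ | γ = 0 ∨ wt Q γ < 0}
  zero_mem' := Or.inl rfl
  add_mem' := by
    rintro a b (rfl | ha) hb
    · simpa using hb
    · right
      rw [wt_add]
      rcases hb with rfl | hb
      · simpa using ha
      · exact add_neg ha hb

theorem mem_geSub {Q : Fin r → ℤ} {γ : Fin r →₀ ℕ} : γ ∈ geSub Q ↔ 0 ≤ wt Q γ := Iff.rfl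

theorem mem_zeroSub {Q : Fin r → ℤ} {γ : Fin r →₀ ℕ} : γ ∈ zeroSub Q ↔ wt Q γ = 0 := Iff.rfl

theorem mem_negSub {Q : Fin r → ℤ} {γ : Fin r →₀ ℕ} : γ ∈ negSub Q ↔ γ = 0 ∨ wt Q γ < 0 := Iff.rfl

theorem ge_neg_disj (Q : Fin r → ℤ) (γ : Fin r →₀ ℕ) (h : γ ∈ geSub Q) (h' : γ ∈ negSub Q) :
    γ = 0 := by
  rcases mem_negSub.1 h' with h' | h'
  · exact h'
  · exact absurd (mem_geSub.1 h) (not_le.2 h')

theorem isTriple_iff {g gp g0 gm : QSeries B} {Q : Fin r → ℤ} :
    IsTriple g gp g0 gm Q ↔ gp 0 = 1 ∧ gp ∈ supp (B := B) (posSub Q) ∧ g0 0 = 1 ∧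
      g0 ∈ supp (B := B) (zeroSub Q) ∧ gm 0 = 1 ∧ gm ∈ supp (B := B) (negSub Q) ∧
      g = gp * g0 * gm := by
  constructor
  · intro h
    refine ⟨h.gp_zero, ?_, h.g0_zero, fun γ hγ => h.g0_supp γ hγ, h.gm_zero, ?_, h.eq⟩
    · intro γ hγ
      by_cases h0 : γ = 0
      · exact Or.inl h0
      · exact Or.inr (h.gp_supp γ h0 hγ)
    · intro γ hγ
      by_cases h0 : γ = 0
      · exact Or.inl h0
      · exact Or.inr (h.gm_supp γ h0 hγ)
  · rintro ⟨h1, h2, h3, h4, h5, h6, h7⟩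
    exact ⟨h1, fun γ h0 hγ => (h2 γ hγ).resolve_left h0, h3, fun γ hγ => h4 γ hγ, h5,
      fun γ h0 hγ => (h6 γ hγ).resolve_left h0, h7⟩

theorem zeroSub_le_leSub (Q : Fin r → ℤ) : zeroSub Q ≤ leSub Q := fun _ h =>
  mem_leSub.2 (mem_zeroSub.1 h).le

theorem zeroSub_le_geSub (Q : Fin r → ℤ) : zeroSub Q ≤ geSub Q := fun _ h =>
  mem_geSub.2 (mem_zeroSub.1 h).ge

theorem negSub_le_leSub (Q : Fin r → ℤ) : negSub Q ≤ leSub Q := by
  intro γ h
  rcases mem_negSub.1 h with rfl | h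
  · exact zero_mem _
  · exact mem_leSub.2 h.le

theorem supp_mono {S T : AddSubmonoid (Fin r →₀ ℕ)} (h : S ≤ T) {f : QSeries B}
    (hf : f ∈ supp (B := B) S) : f ∈ supp (B := B) T := fun γ hγ => h (hf γ hγ)

/-- Existence of the triple factorization. -/
theorem exists_triple {g : QSeries B} (h0 : g 0 = 1) (Q : Fin r → ℤ) :
    ∃ gp g0 gm, IsTriple g gp g0 gm Q := by
  obtain ⟨gp, gr, h1, h2, h3, h4, h5⟩ := exists_factor (pos_le_disj Q) (pos_or_le Q) g h0
  obtain ⟨g0, gm, k1, k2, k3, k4, k5⟩ := exists_factor (P := geSub Q) (L := negSub Q)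
    (ge_neg_disj Q) (by
      intro γ
      by_cases h : wt Q γ < 0
      · exact Or.inr (Or.inr h)
      · exact Or.inl (not_lt.1 h)) gr h2
  have := (factor_mem (ge_neg_disj Q) k1 k2 k3 k4 k5 h4).1
  refine ⟨gp, g0, gm, isTriple_iff.2 ⟨h1, h3, k1, ?_, k2, k4, by rw [mul_assoc, ← k5, ← h5]⟩⟩
  intro γ hγ
  exact le_antisymm (mem_leSub.1 (this γ hγ)) (mem_geSub.1 (k3 γ hγ))

/-- The factors of a series supported on `T` are supported on `T`. -/
theorem triple_mem {g gp g0 gm : QSeries B} {Q : Fin r → ℤ} (h : IsTriple g gp g0 gm Q)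
    {T : AddSubmonoid (Fin r →₀ ℕ)} (hT : g ∈ supp (B := B) T) :
    gp ∈ supp (B := B) T ∧ g0 ∈ supp (B := B) T ∧ gm ∈ supp (B := B) T := by
  obtain ⟨h1, h2, h3, h4, h5, h6, h7⟩ := isTriple_iff.1 h
  have a1 := factor_mem (pos_le_disj Q) h1 (show (g0 * gm) 0 = 1 by
    rw [mul_zero_apply, h3, h5, one_mul]) h2
    (mul_mem (supp_mono (zeroSub_le_leSub Q) h4) (supp_mono (negSub_le_leSub Q) h6))
    (by rw [← mul_assoc]; exact h7) hT
  have a2 := factor_mem (ge_neg_disj Q) h3 h5 (supp_mono (zeroSub_le_geSub Q) h4) h6 rfl a1.2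
  exact ⟨a1.1, a2.1, a2.2⟩

/-- At an exponent `b` with `Q b = 0` which is indecomposable in the submonoid `T`, the
coefficient of the zero part is the coefficient of the series. -/
theorem zero_part_apply {h hp h0 hm : QSeries B} {Q : Fin r → ℤ} (ht : IsTriple h hp h0 hm Q)
    {T : AddSubmonoid (Fin r →₀ ℕ)} (hT : h ∈ supp (B := B) T) {b : Fin r →₀ ℕ} (hb : b ≠ 0)
    (hQ : wt Q b = 0) (hind : ∀ p q, p ∈ T → q ∈ T → p + q = b → p = 0 ∨ q = 0) :
    h b = h0 b := by
  obtain ⟨m1, m2, m3⟩ := triple_mem ht hT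
  have mix : ∀ f f' : QSeries B, f ∈ supp (B := B) T → f' ∈ supp (B := B) T →
      (f * f') b = f 0 * f' b + f b * f' 0 := by
    intro f f' hf hf'
    apply mul_apply_of_mixed hb
    intro p q hpq hp hq
    by_contra hc
    push Not at hc
    rcases hind p q (hf p hc.1) (hf' q hc.2) hpq with h | h
    · exact hp h
    · exact hq h
  have e1 : hp b = 0 := by
    by_contra hc
    exact absurd hQ (ht.gp_supp b hb hc).ne'
  have e2 : hm b = 0 := by
    by_contra hc
    exact absurd hQ (ht.gm_supp b hb hc).ne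
  rw [ht.eq, mix _ _ (mul_mem m1 m2) m3, mix _ _ m1 m2, mul_zero_apply, ht.gp_zero, ht.g0_zero,
    ht.gm_zero, e1, e2]
  ring

theorem euler_mem {T : AddSubmonoid (Fin r →₀ ℕ)} {f : QSeries B} (hf : f ∈ supp (B := B) T) :
    euler f ∈ supp (B := B) T := by
  intro γ h
  apply hf
  intro h0
  apply h
  simp [euler, h0]

theorem deg_add (a b : Fin r →₀ ℕ) : deg (a + b) = deg a + deg b := by
  simp [deg, sum_add_distrib]

@[simp] theorem deg_zero : deg (0 : Fin r →₀ ℕ) = 0 := by simp [deg]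

theorem euler_mul (f g : QSeries B) : euler (f * g) = euler f * g + f * euler g := by
  ext γ
  rw [add_apply, mul_apply, mul_apply, ← sum_add_distrib]
  show (deg γ : K) * (f * g) γ = _
  rw [mul_apply, mul_sum]
  refine sum_congr rfl fun p hp => ?_
  rw [HasAntidiagonal.mem_antidiagonal] at hp
  have : (deg γ : K) = deg p.1 + deg p.2 := by
    rw [← hp, deg_add]
    push_cast
    rfl
  rw [this]
  show _ = v ^ omega B (toZ p.1) (toZ p.2) * ((deg p.1 : K) * f p.1) * g p.2 +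
    v ^ omega B (toZ p.1) (toZ p.2) * f p.1 * ((deg p.2 : K) * g p.2)
  ring

/-- `L = h0⁻¹ * euler h0` is supported on `T` if `h0` is. -/
theorem logDer_mem {T : AddSubmonoid (Fin r →₀ ℕ)} {h0 L : QSeries B}
    (h1 : h0 0 = 1) (hT : h0 ∈ supp (B := B) T) (hL : h0 * L = euler h0) :
    L ∈ supp (B := B) T := by
  have hu := isUnit_of_one h1
  have : L = Ring.inverse h0 * euler h0 := by
    rw [← hL, ← mul_assoc, Ring.inverse_mul_cancel _ hu, one_mul]
  rw [this]
  exact mul_mem (inverse_mem_supp hT (by rw [h1]; exact one_ne_zero)) (euler_mem hT)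

theorem logDer_apply {T : AddSubmonoid (Fin r →₀ ℕ)} {h0 L : QSeries B}
    (h1 : h0 0 = 1) (hT : h0 ∈ supp (B := B) T) (hL : h0 * L = euler h0) {b : Fin r →₀ ℕ}
    (hb : b ≠ 0) (hind : ∀ p q, p ∈ T → q ∈ T → p + q = b → p = 0 ∨ q = 0) :
    L b = (deg b : K) * h0 b := by
  have hLT := logDer_mem h1 hT hL
  have hL0 : L 0 = 0 := by
    have := congrFun hL 0
    rw [mul_zero_apply, h1, one_mul] at this
    rw [this]
    simp [euler]
  have e := congrFun hL b
  rw [mul_apply_of_mixed hb, h1, hL0, mul_zero, add_zero, one_mul] at e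
  · exact e
  · intro p q hpq hp hq
    by_contra hc
    push Not at hc
    rcases hind p q (hT p hc.1) (hLT q hc.2) hpq with h | h
    · exact hp h
    · exact hq h

/-! ### the trace property -/

theorem mul_comm_apply (hB : B.transpose = -B) {f g : QSeries B} {b : Fin r →₀ ℕ}
    (hf : f ∈ supp (B := B) (zeroSub (chartAt B 0 b))) : (f * g) b = (g * f) b := by
  rw [mul_apply, mul_apply]
  refine sum_nbij' Prod.swap Prod.swap ?_ ?_ (fun _ _ => rfl) (fun _ _ => rfl) ?_
  · rintro ⟨p, q⟩ hp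
    rw [HasAntidiagonal.mem_antidiagonal] at hp ⊢
    rw [← hp, add_comm]
    rfl
  · rintro ⟨p, q⟩ hp
    rw [HasAntidiagonal.mem_antidiagonal] at hp ⊢
    rw [← hp, add_comm]
    rfl
  · rintro ⟨p, q⟩ hp
    rw [HasAntidiagonal.mem_antidiagonal] at hp
    simp only [Prod.swap_prod_mk] at hp ⊢
    by_cases h : f p = 0
    · rw [h]
      ring
    · have h1 : omega B (toZ p) (toZ b) = 0 := by
        rw [← wt_chartAt]
        exact hf p h
      rw [← hp, toZ_add, omega_add_right, omega_self hB, zero_add] at h1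
      rw [omega_swap hB (toZ q) (toZ p), h1]
      simp
      ring

end SuppM

end

end Vale.Agent.P066.Theta
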